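import Vale.Agent.P011.D4T.H62.Bc
import Vale.Agent.P011.D4T.H657.Jq

/-!
Block D4T: the isomorphism of the adjoint groups attached to a change of the quadratic field.
-/

namespace Vale.Agent.P011.D4T.H62

set_option linter.unusedSectionVars false

open Vale.Agent.P011.MPQ Vale.Agent.P011.D4 Vale.Agent.P011.D4.Oct Vale.Agent.P011.E6

section side

variable {k L F O : Type} [Field k] [Field L] [Field F] [Field O] [Algebra k L] [Algebra k F]
  [Algebra L F] [Algebra k O] [Algebra L O] [Algebra F O] [IsScalarTower k L F]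
  [IsScalarTower k F O] [IsScalarTower L F O] {a b c : kˣ}

theorem qmap_qin {r : F ≃ₐ[k] F} {r' : O ≃ₐ[k] O}
    (hr : ∀ t : F, r' (algebraMap F O t) = algebraMap F O (r t)) (x : Qt (up F a) (up F b)) :
    qmap r' (qin O x) = qin O (qmap r x) := by
  apply QuaternionAlgebra.ext <;> exact hr _

theorem omap_oin' {r : F ≃ₐ[k] F} {r' : O ≃ₐ[k] O}
    (hr : ∀ t : F, r' (algebraMap F O t) = algebraMap F O (r t)) (x : OctL F a b c) :
    omap r' (oin O x) = oin O (omap r x) := by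
  apply ext8 <;> exact hr _

theorem up_up (a : kˣ) : algebraMap F O ((up F a : Fˣ) : F) = ((up O a : Oˣ) : O) :=
  (IsScalarTower.algebraMap_apply k F O a).symm

theorem qin_mul (x y : Qt (up F a) (up F b)) : qin O (x * y) = qin O x * qin O y := by
  have ha : algebraMap F O ((up F a : Fˣ) : F) = ((up O a : Oˣ) : O) := up_up a
  have hb : algebraMap F O ((up F b : Fˣ) : F) = ((up O b : Oˣ) : O) := up_up b
  apply QuaternionAlgebra.ext
  · rw [re_qin, QuaternionAlgebra.re_mul, QuaternionAlgebra.re_mul]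
    simp only [re_qin, imI_qin, imJ_qin, imK_qin, map_add, map_sub, map_mul, map_zero]
    rw [ha, hb]
  · rw [imI_qin, QuaternionAlgebra.imI_mul, QuaternionAlgebra.imI_mul]
    simp only [re_qin, imI_qin, imJ_qin, imK_qin, map_add, map_sub, map_mul, map_zero]
    rw [hb]
  · rw [imJ_qin, QuaternionAlgebra.imJ_mul, QuaternionAlgebra.imJ_mul]
    simp only [re_qin, imI_qin, imJ_qin, imK_qin, map_add, map_sub, map_mul, map_zero]
    rw [ha]
  · rw [imK_qin, QuaternionAlgebra.imK_mul, QuaternionAlgebra.imK_mul]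
    simp only [re_qin, imI_qin, imJ_qin, imK_qin, map_add, map_sub, map_mul, map_zero]

theorem qin_add (x y : Qt (up F a) (up F b)) : qin O (x + y) = qin O x + qin O y := by
  apply QuaternionAlgebra.ext <;> exact map_add (algebraMap F O) _ _

theorem qin_smul (t : F) (x : Qt (up F a) (up F b)) :
    qin O (t • x) = algebraMap F O t • qin O x := by
  apply QuaternionAlgebra.ext <;> exact map_mul (algebraMap F O) _ _

theorem qin_star (x : Qt (up F a) (up F b)) : qin O (star x) = star (qin O x) := by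
  apply QuaternionAlgebra.ext <;> simp

theorem oin_mul (x y : OctL F a b c) : oin O (x * y) = oin O x * oin O y := by
  have hc : algebraMap F O ((up F c : Fˣ) : F) = ((up O c : Oˣ) : O) := up_up c
  ext1
  · rw [oin_fst, fst_mul, fst_mul, qin_add, qin_smul, qin_mul, qin_mul, qin_star, oin_fst,
      oin_snd, oin_fst, oin_snd]
    rw [hc]
  · rw [oin_snd, snd_mul, snd_mul, qin_add, qin_mul, qin_mul, qin_star, oin_fst, oin_snd,
      oin_fst, oin_snd]

theorem oin_star (x : OctL F a b c) : oin O (star x) = star (oin O x) := by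
  apply ext8 <;> simp

theorem tri_oin {r : F ≃ₐ[k] F} {r' : O ≃ₐ[k] O}
    (hr : ∀ t : F, r' (algebraMap F O t) = algebraMap F O (r t)) (x y : OctL F a b c) :
    tri r' (oin O x) (oin O y) = oin O (tri r x y) := by
  simp only [tri, oin_mul, ← oin_star, omap_oin' hr]

theorem qin_mq (α t : F) : qin O (mq a b α t) = mq a b (algebraMap F O α) (algebraMap F O t) := by
  apply QuaternionAlgebra.ext
  · change algebraMap F O ((t + 1) / 2) = (algebraMap F O t + 1) / 2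
    rw [map_div₀, map_add, map_one, map_ofNat]
  · change algebraMap F O ((t - 1) / (2 * α)) = (algebraMap F O t - 1) / (2 * algebraMap F O α)
    rw [map_div₀, map_sub, map_one, map_mul, map_ofNat]
  · exact map_zero (algebraMap F O)
  · exact map_zero (algebraMap F O)

theorem Jq_oin {s : F ≃ₐ[k] F} {s' : O ≃ₐ[k] O}
    (hs : ∀ t : F, s' (algebraMap F O t) = algebraMap F O (s t)) (α q q' : F)
    (x : OctL F a b c) :
    Jq s' (algebraMap F O α) (algebraMap F O q) (algebraMap F O q') (oin O x) =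
      oin O (Jq s α q q' x) := by
  ext1
  · rw [oin_fst]
    change mq a b _ _ * qmap s' (qin O x.fst) * mq a b _ _ = _
    rw [qmap_qin hs, ← map_mul, ← qin_mq, ← qin_mq, ← qin_mul, ← qin_mul]
    rfl
  · rw [oin_snd]
    change qmap s' (qin O x.snd) * (mq a b _ _ * star (mq a b _ _)) = _
    rw [qmap_qin hs, ← map_mul, ← qin_mq, ← qin_mq, ← qin_star, ← qin_mul, ← qin_mul]
    rfl

theorem Jq_add (s : O ≃ₐ[k] O) (α q q' : O) (x y : OctL O a b c) :
    Jq s α q q' (x + y) = Jq s α q q' x + Jq s α q q' y := by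
  ext1
  · change mq a b α q * qmap s (x.fst + y.fst) * mq a b α (q * q') = _
    rw [qmap_add, mul_add, add_mul]
    rfl
  · change qmap s (x.snd + y.snd) * (mq a b α q * star (mq a b α (q * q'))) = _
    rw [qmap_add, add_mul]
    rfl

theorem Jq_smul (s : O ≃ₐ[k] O) (α q q' : O) (t : O) (x : OctL O a b c) :
    Jq s α q q' (t • x) = s t • Jq s α q q' x := by
  have h : ∀ z : Qt (up O a) (up O b), qmap s (t • z) = s t • qmap s z := by
    intro z
    apply QuaternionAlgebra.ext <;> exact map_mul s _ _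
  ext1
  · change mq a b α q * qmap s (t • x.fst) * mq a b α (q * q') = _
    rw [h, mul_smul_comm, smul_mul_assoc]
    rfl
  · change qmap s (t • x.snd) * (mq a b α q * star (mq a b α (q * q'))) = _
    rw [h, smul_mul_assoc]
    rfl

theorem Jq_zero (s : O ≃ₐ[k] O) (α q q' : O) : Jq s α q q' (0 : OctL O a b c) = 0 := by
  have h := Jq_smul s α q q' 0 (0 : OctL O a b c)
  rwa [zero_smul, map_zero, zero_smul] at h

/-- The extension commutes with the extension of `J`. -/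
theorem IsBc.Jq {y : OctL F a b c ≃ₗ[F] OctL F a b c} {Y : OctL O a b c ≃ₗ[O] OctL O a b c}
    (h : IsBc O y Y) {s : F ≃ₐ[k] F} {s' : O ≃ₐ[k] O}
    (hs : ∀ t : F, s' (algebraMap F O t) = algebraMap F O (s t)) {α q q' : F}
    (hy : ∀ x, y (Jq s α q q' x) = Jq s α q q' (y x)) (x : OctL O a b c) :
    Y (D4T.Jq s' (algebraMap F O α) (algebraMap F O q) (algebraMap F O q') x) =
      D4T.Jq s' (algebraMap F O α) (algebraMap F O q) (algebraMap F O q') (Y x) := by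
  refine ext_oin (F := F)
    (f := fun x => Y (D4T.Jq s' (algebraMap F O α) (algebraMap F O q) (algebraMap F O q') x))
    (g := fun x => D4T.Jq s' (algebraMap F O α) (algebraMap F O q) (algebraMap F O q') (Y x))
    (fun x y => ?_) (fun x y => ?_) ?_ ?_ (fun t x => ?_) x
  · rw [Jq_add, map_add]
  · rw [map_add, Jq_add]
  · change Y _ = 0
    rw [Jq_zero, map_zero]
  · change D4T.Jq _ _ _ _ (Y 0) = 0
    rw [map_zero, Jq_zero]
  · rw [Jq_smul, map_smul, map_smul, Jq_smul, Jq_oin hs, h, h, Jq_oin hs, hy]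

/-- The extension is a similitude with the same multiplier. -/
theorem IsBc.tri {y : OctL F a b c ≃ₗ[F] OctL F a b c} {Y : OctL O a b c ≃ₗ[O] OctL O a b c}
    (h : IsBc O y Y) {r : F ≃ₐ[k] F} {r' : O ≃ₐ[k] O}
    (hr : ∀ t : F, r' (algebraMap F O t) = algebraMap F O (r t)) {κ : F}
    (hy : ∀ x x', y (D4.tri r x x') = κ • D4.tri r (y x) (y x')) (x x' : OctL O a b c) :
    Y (D4.tri r' x x') = algebraMap F O κ • D4.tri r' (Y x) (Y x') := by
  refine ext_oin (F := F) (f := fun x => Y (D4.tri r' x x'))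
    (g := fun x => algebraMap F O κ • D4.tri r' (Y x) (Y x'))
    (fun x y => ?_) (fun x y => ?_) ?_ ?_ (fun t x => ?_) x
  · rw [tri_add_left, map_add]
  · rw [map_add, tri_add_left, smul_add]
  · change Y _ = 0
    rw [tri_zero_left, map_zero]
  · change algebraMap F O κ • D4.tri r' (Y 0) (Y x') = 0
    rw [map_zero, tri_zero_left, smul_zero]
  · rw [tri_smul_left, map_smul, map_smul, tri_smul_left, smul_comm]
    congr 1
    refine ext_oin (F := F) (f := fun x' => Y (D4.tri r' (oin O x) x'))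
      (g := fun x' => algebraMap F O κ • D4.tri r' (Y (oin O x)) (Y x'))
      (fun x y => ?_) (fun x y => ?_) ?_ ?_ (fun t x' => ?_) x'
    · rw [tri_add_right, map_add]
    · rw [map_add, tri_add_right, smul_add]
    · change Y _ = 0
      rw [tri_zero_right, map_zero]
    · change algebraMap F O κ • D4.tri r' (Y (oin O x)) (Y 0) = 0
      rw [map_zero, tri_zero_right, smul_zero]
    · rw [tri_smul_right, map_smul, map_smul, tri_smul_right, smul_comm]
      congr 1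
      rw [tri_oin hr, h, h, h, tri_oin hr, hy, oin_smul]

end side

section main

variable {k L E E1 O : Type} [Field k] [Field L] [Field E] [Field E1] [Field O] [Algebra k L]
  [Algebra k E] [Algebra L E] [Algebra k E1] [Algebra L E1] [Algebra k O] [Algebra L O]
  [Algebra E O] [Algebra E1 O] [IsScalarTower k L E] [IsScalarTower k L E1]
  [IsScalarTower k E O] [IsScalarTower k E1 O] [IsScalarTower L E O] [IsScalarTower L E1 O]
  {ρ σ : E ≃ₐ[k] E} {ρ1 σ1 : E1 ≃ₐ[k] E1} {ρ' σ' τ' : O ≃ₐ[k] O} {α : E} {α1 : E1}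
  {a b c a1 b1 c1 : kˣ} {q q1 : Lˣ}

/-- The data of a change of the quadratic field. -/
structure KCH (ρ σ : E ≃ₐ[k] E) (ρ1 σ1 : E1 ≃ₐ[k] E1) (ρ' σ' τ' : O ≃ₐ[k] O) (α : E) (α1 : E1)
    (q q1 : Lˣ) (u : OctL O a1 b1 c1 ≃ₗ[O] OctL O a b c) : Prop where
  hρ : ∀ t : E, ρ' (algebraMap E O t) = algebraMap E O (ρ t)
  hσ : ∀ t : E, σ' (algebraMap E O t) = algebraMap E O (σ t)
  hτ : ∀ t : E, τ' (algebraMap E O t) = algebraMap E O t
  fτ : ∀ x, τ' x = x → ∃ t : E, algebraMap E O t = x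
  hρ1 : ∀ t : E1, ρ' (algebraMap E1 O t) = algebraMap E1 O (ρ1 t)
  hσ1 : ∀ t : E1, σ' (algebraMap E1 O t) = algebraMap E1 O t
  hτ1 : ∀ t : E1, τ' (algebraMap E1 O t) = algebraMap E1 O (σ1 t)
  fσ : ∀ x, σ' x = x → ∃ t : E1, algebraMap E1 O t = x
  hu : ∃ e : O, e ≠ 0 ∧ ∀ x y, tri ρ' (u x) (u y) = e • u (tri ρ' x y)
  hJ : ∃ s : O, s ≠ 0 ∧ ∀ x, Jq σ' (algebraMap E O α) (algebraMap L O q) (ρ' (algebraMap L O q))
    (u x) = s • u (omap σ' x)
  hJ1 : ∃ t : O, t ≠ 0 ∧ ∀ x, omap τ' (u x) = t • u (Jq τ' (algebraMap E1 O α1)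
    (algebraMap L O q1) (ρ' (algebraMap L O q1)) x)
  ht : ∀ x, u (t0 O a1 b1 c1 x) = t0 O a b c (u x)

variable {u : OctL O a1 b1 c1 ≃ₗ[O] OctL O a b c}

/-- The change of the field in the other direction. -/
theorem KCH.symm (h : KCH ρ σ ρ1 σ1 ρ' σ' τ' α α1 q q1 u) :
    KCH ρ1 σ1 ρ σ ρ' τ' σ' α1 α q1 q u.symm where
  hρ := h.hρ1
  hσ := h.hτ1
  hτ := h.hσ1
  fτ := h.fσ
  hρ1 := h.hρ
  hσ1 := h.hτ
  hτ1 := h.hσ
  fσ := h.fτ
  hu := by
    obtain ⟨e, he, h1⟩ := h.hu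
    refine ⟨e⁻¹, inv_ne_zero he, fun x y => ?_⟩
    apply u.injective
    rw [map_smul, LinearEquiv.apply_symm_apply]
    have h2 := h1 (u.symm x) (u.symm y)
    rw [LinearEquiv.apply_symm_apply, LinearEquiv.apply_symm_apply] at h2
    rw [h2, smul_smul, inv_mul_cancel₀ he, one_smul]
  hJ := by
    obtain ⟨t, ht, h1⟩ := h.hJ1
    refine ⟨t⁻¹, inv_ne_zero ht, fun x => ?_⟩
    apply u.injective
    rw [map_smul, LinearEquiv.apply_symm_apply]
    have h2 := h1 (u.symm x)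
    rw [LinearEquiv.apply_symm_apply] at h2
    rw [h2, smul_smul, inv_mul_cancel₀ ht, one_smul]
  hJ1 := by
    obtain ⟨s, hs, h1⟩ := h.hJ
    refine ⟨s⁻¹, inv_ne_zero hs, fun x => ?_⟩
    apply u.injective
    rw [map_smul, LinearEquiv.apply_symm_apply]
    have h2 := h1 (u.symm x)
    rw [LinearEquiv.apply_symm_apply] at h2
    rw [h2, smul_smul, inv_mul_cancel₀ hs, one_smul]
  ht := fun x => by
    apply u.injective
    rw [h.ht, LinearEquiv.apply_symm_apply, LinearEquiv.apply_symm_apply]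

/-- Corresponding linear maps. -/
def Rel (u : OctL O a1 b1 c1 ≃ₗ[O] OctL O a b c) (z : OctL E a b c ≃ₗ[E] OctL E a b c)
    (y : OctL E1 a1 b1 c1 ≃ₗ[E1] OctL E1 a1 b1 c1) : Prop :=
  ∃ (Z : OctL O a b c ≃ₗ[O] OctL O a b c) (Y : OctL O a1 b1 c1 ≃ₗ[O] OctL O a1 b1 c1),
    IsBc O z Z ∧ IsBc O y Y ∧ ∀ x, u (Y x) = Z (u x)

theorem Rel.symm {z : OctL E a b c ≃ₗ[E] OctL E a b c}
    {y : OctL E1 a1 b1 c1 ≃ₗ[E1] OctL E1 a1 b1 c1} (h : Rel u z y) : Rel u.symm y z := by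
  obtain ⟨Z, Y, h1, h2, h3⟩ := h
  refine ⟨Y, Z, h2, h1, fun x => ?_⟩
  apply u.injective
  rw [h3, LinearEquiv.apply_symm_apply, LinearEquiv.apply_symm_apply]

theorem Rel.unique {z : OctL E a b c ≃ₗ[E] OctL E a b c}
    {y y' : OctL E1 a1 b1 c1 ≃ₗ[E1] OctL E1 a1 b1 c1} (h : Rel u z y) (h' : Rel u z y') :
    y = y' := by
  obtain ⟨Z, Y, h1, h2, h3⟩ := h
  obtain ⟨Z', Y', h1', h2', h3'⟩ := h'
  have hZ := h1.unique h1'
  subst hZ
  have hY : Y = Y' := by
    apply LinearEquiv.ext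
    intro x
    apply u.injective
    rw [h3, h3']
  subst hY
  exact h2.unique' h2'

theorem Rel.mul {z z' : OctL E a b c ≃ₗ[E] OctL E a b c}
    {y y' : OctL E1 a1 b1 c1 ≃ₗ[E1] OctL E1 a1 b1 c1} (h : Rel u z y) (h' : Rel u z' y') :
    Rel u (z * z') (y * y') := by
  obtain ⟨Z, Y, h1, h2, h3⟩ := h
  obtain ⟨Z', Y', h1', h2', h3'⟩ := h'
  refine ⟨Z * Z', Y * Y', h1.mul h1', h2.mul h2', fun x => ?_⟩
  rw [LinearEquiv.mul_apply, LinearEquiv.mul_apply, h3, h3']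

theorem KCH.exists_rel (h : KCH ρ σ ρ1 σ1 ρ' σ' τ' α α1 q q1 u)
    {z : OctL E a b c ≃ₗ[E] OctL E a b c} (hz : ∀ x, z (Jm ρ σ α q x) = Jm ρ σ α q (z x)) :
    ∃ y : OctL E1 a1 b1 c1 ≃ₗ[E1] OctL E1 a1 b1 c1, Rel u z y := by
  obtain ⟨Z, hZ⟩ := exists_bc (O := O) z
  obtain ⟨s, hs, hJ⟩ := h.hJ
  have hq : algebraMap L O q = algebraMap E O (algebraMap L E q) :=
    IsScalarTower.algebraMap_apply L E O _
  have hZJ := hZ.Jq h.hσ (q := algebraMap L E q) (q' := ρ (algebraMap L E q)) hz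
  rw [← h.hρ, ← hq] at hZJ
  have hY : ∀ x, u (((u.trans Z).trans u.symm) x) = Z (u x) := fun x =>
    LinearEquiv.apply_symm_apply u _
  obtain ⟨y, hy⟩ := exists_desc h.hσ1 h.fσ (Y := (u.trans Z).trans u.symm) (fun x => by
    apply u.injective
    apply smul_right_injective _ hs
    change s • u _ = s • u _
    rw [← hJ, hY, hY, ← hZJ, hJ, map_smul])
  exact ⟨y, Z, _, hZ, hy, hY⟩

theorem KCH.rel_J (h : KCH ρ σ ρ1 σ1 ρ' σ' τ' α α1 q q1 u)
    {z : OctL E a b c ≃ₗ[E] OctL E a b c} {y : OctL E1 a1 b1 c1 ≃ₗ[E1] OctL E1 a1 b1 c1}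
    (hr : Rel u z y) (x : OctL E1 a1 b1 c1) : y (Jm ρ1 σ1 α1 q1 x) = Jm ρ1 σ1 α1 q1 (y x) := by
  obtain ⟨Z, Y, h1, h2, h3⟩ := hr
  obtain ⟨t, ht, hJ1⟩ := h.hJ1
  have hq : algebraMap L O q1 = algebraMap E1 O (algebraMap L E1 q1) :=
    IsScalarTower.algebraMap_apply L E1 O _
  rw [hq, h.hρ1] at hJ1
  have hYJ : ∀ x, Y (Jq τ' (algebraMap E1 O α1) (algebraMap E1 O (algebraMap L E1 q1))
      (algebraMap E1 O (ρ1 (algebraMap L E1 q1))) x) =
      Jq τ' (algebraMap E1 O α1) (algebraMap E1 O (algebraMap L E1 q1))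
      (algebraMap E1 O (ρ1 (algebraMap L E1 q1))) (Y x) := by
    intro x
    apply u.injective
    apply smul_right_injective _ ht
    change t • u _ = t • u _
    rw [← hJ1, h3, h3, ← map_smul Z, ← hJ1, h1.comm h.hτ]
  apply oin_inj (O := O)
  change oin O (y (Jq σ1 α1 (algebraMap L E1 q1) (ρ1 (algebraMap L E1 q1)) x)) =
    oin O (Jq σ1 α1 (algebraMap L E1 q1) (ρ1 (algebraMap L E1 q1)) (y x))
  rw [← Jq_oin h.hτ1, ← h2, ← h2, ← Jq_oin h.hτ1, hYJ]

theorem KCH.rel_kap (h : KCH ρ σ ρ1 σ1 ρ' σ' τ' α α1 q q1 u)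
    {z : OctL E a b c ≃ₗ[E] OctL E a b c} {y : OctL E1 a1 b1 c1 ≃ₗ[E1] OctL E1 a1 b1 c1}
    (hr : Rel u z y) {κ : Lˣ} (hκ : IsKap ρ z κ) : IsKap ρ1 y κ := by
  obtain ⟨Z, Y, h1, h2, h3⟩ := hr
  obtain ⟨e, he, hu⟩ := h.hu
  have hZ := h1.tri h.hρ hκ
  have hq : algebraMap E O (algebraMap L E κ) = algebraMap E1 O (algebraMap L E1 κ) := by
    rw [← IsScalarTower.algebraMap_apply L E O, ← IsScalarTower.algebraMap_apply L E1 O]
  have hY : ∀ x x', Y (tri ρ' x x') =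
      algebraMap E1 O (algebraMap L E1 κ) • tri ρ' (Y x) (Y x') := by
    intro x x'
    apply u.injective
    apply smul_right_injective _ he
    change e • u _ = e • u _
    rw [h3, map_smul, smul_comm e, ← hu, h3, h3, ← map_smul, ← hu, hZ, hq]
  intro x x'
  apply oin_inj (O := O)
  rw [← h2, ← tri_oin h.hρ1, hY, h2, h2, oin_smul, tri_oin h.hρ1]

theorem KCH.rel_t0 (h : KCH ρ σ ρ1 σ1 ρ' σ' τ' α α1 q q1 u)
    {z : OctL E a b c ≃ₗ[E] OctL E a b c} {y : OctL E1 a1 b1 c1 ≃ₗ[E1] OctL E1 a1 b1 c1}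
    (hr : Rel u z y) (hz : ∀ x, z (t0 E a b c x) = t0 E a b c (z x))
    (x : OctL E1 a1 b1 c1) : y (t0 E1 a1 b1 c1 x) = t0 E1 a1 b1 c1 (y x) := by
  obtain ⟨Z, Y, h1, h2, h3⟩ := hr
  have hin : ∀ x : OctL E a b c, oin O (t0 E a b c x) = t0 O a b c (oin O x) := by
    intro x
    apply ext8 <;> simp [t0]
  have hin1 : ∀ x : OctL E1 a1 b1 c1, oin O (t0 E1 a1 b1 c1 x) = t0 O a1 b1 c1 (oin O x) := by
    intro x
    apply ext8 <;> simp [t0]
  have hb : IsBc O (t0 E a b c) (t0 O a b c) := fun x => (hin x).symm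
  have hc : Z * t0 O a b c = t0 O a b c * Z := by
    have e1 := h1.mul hb
    have e2 := hb.mul h1
    have e3 : z * t0 E a b c = t0 E a b c * z := LinearEquiv.ext hz
    rw [e3] at e1
    exact e1.unique e2
  have hY : ∀ x, Y (t0 O a1 b1 c1 x) = t0 O a1 b1 c1 (Y x) := by
    intro x
    apply u.injective
    rw [h3, h.ht, h.ht, h3]
    exact congrArg (fun f : OctL O a b c ≃ₗ[O] OctL O a b c => f (u x)) hc
  apply oin_inj (O := O)
  rw [hin1, ← h2, ← h2, hin1, hY]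

/-- **KC.** The isomorphism of the adjoint groups. -/
theorem KCH.exists_equiv (h : KCH ρ σ ρ1 σ1 ρ' σ' τ' α α1 q q1 u) :
    ∃ φ : AT ρ σ α a b c q ≃* AT ρ1 σ1 α1 a1 b1 c1 q1,
      (∀ z, Rel u z.1 (φ z).1) ∧
      (∀ (z : AT ρ σ α a b c q) (Z : OctL O a b c ≃ₗ[O] OctL O a b c), IsBc O z.1 Z →
        ∀ x : OctL E1 a1 b1 c1, u (oin O ((φ z).1 x)) = Z (u (oin O x))) ∧
      (∀ (z : AT ρ σ α a b c q) (κ : Lˣ), IsKap ρ z.1 κ ↔ IsKap ρ1 (φ z).1 κ) ∧
      ∀ z : AT ρ σ α a b c q, z ∈ stab0 ρ σ α a b c q ↔ φ z ∈ stab0 ρ1 σ1 α1 a1 b1 c1 q1 := by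
  have hf : ∀ z : AT ρ σ α a b c q, ∃ y : AT ρ1 σ1 α1 a1 b1 c1 q1, Rel u z.1 y.1 := by
    intro z
    obtain ⟨y, hy⟩ := h.exists_rel z.2.2
    obtain ⟨κ, hκ⟩ := z.2.1
    exact ⟨⟨y, ⟨κ, h.rel_kap hy hκ⟩, h.rel_J hy⟩, hy⟩
  have hg : ∀ y : AT ρ1 σ1 α1 a1 b1 c1 q1, ∃ z : AT ρ σ α a b c q, Rel u z.1 y.1 := by
    intro y
    obtain ⟨z, hz⟩ := h.symm.exists_rel y.2.2
    obtain ⟨κ, hκ⟩ := y.2.1
    exact ⟨⟨z, ⟨κ, h.symm.rel_kap hz hκ⟩, h.symm.rel_J hz⟩, hz.symm⟩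
  choose f hf using hf
  choose g hg using hg
  refine ⟨{ toFun := f
            invFun := g
            left_inv := fun z => Subtype.ext ((hg (f z)).symm.unique (hf z).symm)
            right_inv := fun y => Subtype.ext ((hf (g y)).unique (hg y))
            map_mul' := fun z z' => Subtype.ext ((hf (z * z')).unique ((hf z).mul (hf z'))) },
    hf, fun z Z hZ x => ?_, fun z κ => ⟨fun hκ => h.rel_kap (hf z) hκ, fun hκ => ?_⟩,
    fun z => ⟨fun hz => h.rel_t0 (hf z) hz, fun hz => ?_⟩⟩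
  · obtain ⟨Z', Y, h1, h2, h3⟩ := hf z
    change u (oin O ((f z).1 x)) = _
    rw [hZ.unique h1, ← h3, h2]
  · exact h.symm.rel_kap (hf z).symm hκ
  · exact h.symm.rel_t0 (hf z).symm hz

end main

end Vale.Agent.P011.D4T.H62
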