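import Vale.Agent.P011.D4T.Defs2
import Vale.Agent.P011.D4T.H493.Star

/-!
Block D4T: extension of scalars and descent for linear maps of octonion algebras.
-/

namespace Vale.Agent.P011.D4T.H62

open Vale.Agent.P011.MPQ Vale.Agent.P011.D4 Vale.Agent.P011.D4.Oct Vale.Agent.P011.E6

section basis

variable {F : Type} [Field F] {a b c : Fˣ}

/-- The coordinates of an octonion. -/
def co (x : Oct a b c) : Fin 8 → F :=
  ![x.fst.re, x.fst.imI, x.fst.imJ, x.fst.imK, x.snd.re, x.snd.imI, x.snd.imJ, x.snd.imK]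

/-- The standard basis. -/
def bs (a b c : Fˣ) : Fin 8 → Oct a b c :=
  ![⟨⟨1, 0, 0, 0⟩, ⟨0, 0, 0, 0⟩⟩, ⟨⟨0, 1, 0, 0⟩, ⟨0, 0, 0, 0⟩⟩, ⟨⟨0, 0, 1, 0⟩, ⟨0, 0, 0, 0⟩⟩,
    ⟨⟨0, 0, 0, 1⟩, ⟨0, 0, 0, 0⟩⟩, ⟨⟨0, 0, 0, 0⟩, ⟨1, 0, 0, 0⟩⟩, ⟨⟨0, 0, 0, 0⟩, ⟨0, 1, 0, 0⟩⟩,
    ⟨⟨0, 0, 0, 0⟩, ⟨0, 0, 1, 0⟩⟩, ⟨⟨0, 0, 0, 0⟩, ⟨0, 0, 0, 1⟩⟩]

theorem sum_co (x : Oct a b c) : ∑ i, co x i • bs a b c i = x := by
  rw [Fin.sum_univ_eight]
  apply ext8 <;> simp [co, bs]

theorem co_add (x y : Oct a b c) : co (x + y) = co x + co y := by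
  funext i
  fin_cases i <;> simp [co]

theorem co_smul (t : F) (x : Oct a b c) : co (t • x) = t • co x := by
  funext i
  fin_cases i <;> simp [co]

end basis

section bc

variable {k F O : Type} [Field k] [Field F] [Field O] [Algebra k F] [Algebra k O] [Algebra F O]
  {a b c : kˣ}

/-- The embedding of the quaternions over `F` into the quaternions over `O`. -/
def qin (O : Type) [Field O] [Algebra k O] [Algebra F O] {a b : kˣ}
    (x : Qt (up F a) (up F b)) : Qt (up O a) (up O b) :=
  ⟨algebraMap F O x.re, algebraMap F O x.imI, algebraMap F O x.imJ, algebraMap F O x.imK⟩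

/-- The embedding of the octonions over `F` into the octonions over `O`. -/
def oin (O : Type) [Field O] [Algebra k O] [Algebra F O] {a b c : kˣ} (x : OctL F a b c) :
    OctL O a b c :=
  ⟨qin O x.fst, qin O x.snd⟩

@[simp] theorem re_qin (x : Qt (up F a) (up F b)) : (qin O x).re = algebraMap F O x.re := rfl
@[simp] theorem imI_qin (x : Qt (up F a) (up F b)) : (qin O x).imI = algebraMap F O x.imI := rfl
@[simp] theorem imJ_qin (x : Qt (up F a) (up F b)) : (qin O x).imJ = algebraMap F O x.imJ := rfl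
@[simp] theorem imK_qin (x : Qt (up F a) (up F b)) : (qin O x).imK = algebraMap F O x.imK := rfl
@[simp] theorem oin_fst (x : OctL F a b c) : (oin O x).fst = qin O x.fst := rfl
@[simp] theorem oin_snd (x : OctL F a b c) : (oin O x).snd = qin O x.snd := rfl

theorem oin_add (x y : OctL F a b c) : oin O (x + y) = oin O x + oin O y := by
  apply ext8 <;> simp

theorem oin_smul (t : F) (x : OctL F a b c) : oin O (t • x) = algebraMap F O t • oin O x := by
  apply ext8 <;> exact map_mul (algebraMap F O) t _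

theorem oin_zero : oin O (0 : OctL F a b c) = 0 := by
  apply ext8 <;> simp

theorem oin_inj {x y : OctL F a b c} (h : oin O x = oin O y) : x = y := by
  have h1 : ∀ s t : F, algebraMap F O s = algebraMap F O t → s = t := fun s t e =>
    (algebraMap F O).injective e
  apply ext8
  · exact h1 _ _ (congrArg (fun z : OctL O a b c => z.fst.re) h)
  · exact h1 _ _ (congrArg (fun z : OctL O a b c => z.fst.imI) h)
  · exact h1 _ _ (congrArg (fun z : OctL O a b c => z.fst.imJ) h)
  · exact h1 _ _ (congrArg (fun z : OctL O a b c => z.fst.imK) h)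
  · exact h1 _ _ (congrArg (fun z : OctL O a b c => z.snd.re) h)
  · exact h1 _ _ (congrArg (fun z : OctL O a b c => z.snd.imI) h)
  · exact h1 _ _ (congrArg (fun z : OctL O a b c => z.snd.imJ) h)
  · exact h1 _ _ (congrArg (fun z : OctL O a b c => z.snd.imK) h)

theorem oin_sum {ι : Type} (s : Finset ι) (f : ι → OctL F a b c) :
    oin O (∑ i ∈ s, f i) = ∑ i ∈ s, oin O (f i) := by
  classical
  induction s using Finset.induction_on with
  | empty => rw [Finset.sum_empty, Finset.sum_empty, oin_zero]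
  | insert i s hi ih => rw [Finset.sum_insert hi, Finset.sum_insert hi, oin_add, ih]

theorem oin_bs (i : Fin 8) : oin O (bs (up F a) (up F b) (up F c) i) =
    bs (up O a) (up O b) (up O c) i := by
  fin_cases i <;> apply ext8 <;>
    first
      | exact map_one (algebraMap F O)
      | exact map_zero (algebraMap F O)

theorem co_oin (x : OctL F a b c) (i : Fin 8) : co (oin O x) i = algebraMap F O (co x i) := by
  fin_cases i <;> rfl

/-- Additive maps which agree on multiples of elements over `F` are equal. -/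
theorem ext_oin {M : Type} [AddCommMonoid M] {f g : OctL O a b c → M}
    (hf : ∀ x y, f (x + y) = f x + f y) (hg : ∀ x y, g (x + y) = g x + g y)
    (hf0 : f 0 = 0) (hg0 : g 0 = 0)
    (h : ∀ (t : O) (x : OctL F a b c), f (t • oin O x) = g (t • oin O x)) (x : OctL O a b c) :
    f x = g x := by
  rw [← sum_co x]
  have key : ∀ s : Finset (Fin 8), f (∑ i ∈ s, co x i • bs (up O a) (up O b) (up O c) i) =
      g (∑ i ∈ s, co x i • bs (up O a) (up O b) (up O c) i) := by
    intro s
    induction s using Finset.induction_on with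
    | empty => rw [Finset.sum_empty, hf0, hg0]
    | insert i s hi ih =>
      rw [Finset.sum_insert hi, hf, hg, ih, ← oin_bs (F := F), h]
  exact key _

/-- The linear map over `O` with the given values on the standard basis. -/
def asc (O : Type) [Field O] [Algebra k O] [Algebra F O]
    (y : OctL F a b c →ₗ[F] OctL F a b c) : OctL O a b c →ₗ[O] OctL O a b c where
  toFun x := ∑ i, co x i • oin O (y (bs (up F a) (up F b) (up F c) i))
  map_add' x x' := by
    rw [← Finset.sum_add_distrib]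
    apply Finset.sum_congr rfl
    intro i _
    rw [co_add, Pi.add_apply, add_smul]
  map_smul' t x := by
    rw [RingHom.id_apply, Finset.smul_sum]
    apply Finset.sum_congr rfl
    intro i _
    rw [co_smul, Pi.smul_apply, smul_eq_mul, mul_smul]

theorem asc_oin (y : OctL F a b c →ₗ[F] OctL F a b c) (x : OctL F a b c) :
    asc O y (oin O x) = oin O (y x) := by
  change ∑ i, co (oin O x) i • oin O (y (bs (up F a) (up F b) (up F c) i)) = _
  have h := congrArg (fun z => oin O (y z)) (sum_co x)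
  simp only [map_sum, map_smul, oin_sum, oin_smul] at h
  rw [← h]
  apply Finset.sum_congr rfl
  intro i _
  rw [co_oin]

/-- `Y` is the extension of `y` to `O`. -/
def IsBc (O : Type) [Field O] [Algebra k O] [Algebra F O]
    (y : OctL F a b c ≃ₗ[F] OctL F a b c) (Y : OctL O a b c ≃ₗ[O] OctL O a b c) : Prop :=
  ∀ x, Y (oin O x) = oin O (y x)

theorem ext_lin {Y Y' : OctL O a b c →ₗ[O] OctL O a b c}
    (h : ∀ x : OctL F a b c, Y (oin O x) = Y' (oin O x)) : Y = Y' := by
  apply LinearMap.ext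
  intro x
  refine ext_oin (F := F) (map_add Y) (map_add Y') (map_zero Y) (map_zero Y') (fun t x => ?_) x
  rw [map_smul, map_smul, h]

theorem exists_bc (y : OctL F a b c ≃ₗ[F] OctL F a b c) :
    ∃ Y : OctL O a b c ≃ₗ[O] OctL O a b c, IsBc O y Y := by
  have h1 : (asc O (y : OctL F a b c →ₗ[F] OctL F a b c)) ∘ₗ
      (asc O (y.symm : OctL F a b c →ₗ[F] OctL F a b c)) = LinearMap.id := by
    apply ext_lin (F := F)
    intro x
    rw [LinearMap.comp_apply, asc_oin, asc_oin, LinearEquiv.coe_coe, LinearEquiv.coe_coe,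
      LinearEquiv.apply_symm_apply, LinearMap.id_apply]
  have h2 : (asc O (y.symm : OctL F a b c →ₗ[F] OctL F a b c)) ∘ₗ
      (asc O (y : OctL F a b c →ₗ[F] OctL F a b c)) = LinearMap.id := by
    apply ext_lin (F := F)
    intro x
    rw [LinearMap.comp_apply, asc_oin, asc_oin, LinearEquiv.coe_coe, LinearEquiv.coe_coe,
      LinearEquiv.symm_apply_apply, LinearMap.id_apply]
  exact ⟨LinearEquiv.ofLinearMap _ _ h1 h2, fun x => asc_oin _ x⟩

theorem IsBc.unique {y : OctL F a b c ≃ₗ[F] OctL F a b c}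
    {Y Y' : OctL O a b c ≃ₗ[O] OctL O a b c} (h : IsBc O y Y) (h' : IsBc O y Y') : Y = Y' := by
  apply LinearEquiv.toLinearMap_injective
  apply ext_lin (F := F)
  intro x
  exact (h x).trans (h' x).symm

theorem IsBc.unique' {y y' : OctL F a b c ≃ₗ[F] OctL F a b c}
    {Y : OctL O a b c ≃ₗ[O] OctL O a b c} (h : IsBc O y Y) (h' : IsBc O y' Y) : y = y' := by
  apply LinearEquiv.ext
  intro x
  apply oin_inj (O := O)
  exact (h x).symm.trans (h' x)

theorem IsBc.mul {y y' : OctL F a b c ≃ₗ[F] OctL F a b c}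
    {Y Y' : OctL O a b c ≃ₗ[O] OctL O a b c} (h : IsBc O y Y) (h' : IsBc O y' Y') :
    IsBc O (y * y') (Y * Y') := by
  intro x
  rw [LinearEquiv.mul_apply, LinearEquiv.mul_apply, h', h]

theorem omap_zero' (s : O ≃ₐ[k] O) : omap s (0 : OctL O a b c) = 0 := by
  apply ext8 <;> exact map_zero s

theorem omap_oin {s : O ≃ₐ[k] O} (hs : ∀ t : F, s (algebraMap F O t) = algebraMap F O t)
    (x : OctL F a b c) : omap s (oin O x) = oin O x := by
  apply ext8 <;> exact hs _

/-- The extension commutes with the automorphisms over `F`. -/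
theorem IsBc.comm {y : OctL F a b c ≃ₗ[F] OctL F a b c} {Y : OctL O a b c ≃ₗ[O] OctL O a b c}
    (h : IsBc O y Y) {s : O ≃ₐ[k] O} (hs : ∀ t : F, s (algebraMap F O t) = algebraMap F O t)
    (x : OctL O a b c) : omap s (Y x) = Y (omap s x) := by
  refine ext_oin (F := F) (f := fun x => omap s (Y x)) (g := fun x => Y (omap s x))
    (fun x y => ?_) (fun x y => ?_) ?_ ?_ (fun t x => ?_) x
  · rw [map_add, omap_add]
  · rw [omap_add, map_add]
  · change omap s (Y 0) = 0
    rw [map_zero]
    exact omap_zero' s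
  · change Y (omap s 0) = 0
    rw [omap_zero' s, map_zero]
  · change omap s (Y (t • oin O x)) = Y (omap s (t • oin O x))
    rw [map_smul, omap_smul, omap_smul, map_smul, h, omap_oin hs, omap_oin hs, h]

/-- Descent of elements. -/
theorem exists_oin {s : O ≃ₐ[k] O} (hs : ∀ x : O, s x = x → ∃ t : F, algebraMap F O t = x)
    {x : OctL O a b c} (hx : omap s x = x) : ∃ y : OctL F a b c, oin O y = x := by
  obtain ⟨t0, h0⟩ := hs x.fst.re (congrArg (fun z : OctL O a b c => z.fst.re) hx)
  obtain ⟨t1, h1⟩ := hs x.fst.imI (congrArg (fun z : OctL O a b c => z.fst.imI) hx)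
  obtain ⟨t2, h2⟩ := hs x.fst.imJ (congrArg (fun z : OctL O a b c => z.fst.imJ) hx)
  obtain ⟨t3, h3⟩ := hs x.fst.imK (congrArg (fun z : OctL O a b c => z.fst.imK) hx)
  obtain ⟨t4, h4⟩ := hs x.snd.re (congrArg (fun z : OctL O a b c => z.snd.re) hx)
  obtain ⟨t5, h5⟩ := hs x.snd.imI (congrArg (fun z : OctL O a b c => z.snd.imI) hx)
  obtain ⟨t6, h6⟩ := hs x.snd.imJ (congrArg (fun z : OctL O a b c => z.snd.imJ) hx)
  obtain ⟨t7, h7⟩ := hs x.snd.imK (congrArg (fun z : OctL O a b c => z.snd.imK) hx)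
  refine ⟨⟨⟨t0, t1, t2, t3⟩, ⟨t4, t5, t6, t7⟩⟩, ?_⟩
  exact ext8 h0 h1 h2 h3 h4 h5 h6 h7

/-- Descent of linear maps. -/
theorem exists_desc {s : O ≃ₐ[k] O} (hs : ∀ t : F, s (algebraMap F O t) = algebraMap F O t)
    (hs' : ∀ x : O, s x = x → ∃ t : F, algebraMap F O t = x)
    {Y : OctL O a b c ≃ₗ[O] OctL O a b c} (hY : ∀ x, omap s (Y x) = Y (omap s x)) :
    ∃ y : OctL F a b c ≃ₗ[F] OctL F a b c, IsBc O y Y := by
  have h1 : ∀ x : OctL F a b c, ∃ z : OctL F a b c, oin O z = Y (oin O x) := by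
    intro x
    apply exists_oin hs'
    rw [hY, omap_oin hs]
  have h2 : ∀ x : OctL F a b c, ∃ z : OctL F a b c, oin O z = Y.symm (oin O x) := by
    intro x
    apply exists_oin hs'
    apply Y.injective
    rw [← hY, LinearEquiv.apply_symm_apply, omap_oin hs]
  choose f hf using h1
  choose g hg using h2
  refine ⟨{ toFun := f
            invFun := g
            map_add' := fun x y => oin_inj (O := O) ?_
            map_smul' := fun t x => oin_inj (O := O) ?_
            left_inv := fun x => oin_inj (O := O) ?_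
            right_inv := fun x => oin_inj (O := O) ?_ }, fun x => (hf x).symm⟩
  · rw [hf, oin_add, oin_add, map_add, hf, hf]
  · rw [hf, oin_smul, RingHom.id_apply, oin_smul, map_smul, hf]
  · rw [hg, hf, LinearEquiv.symm_apply_apply]
  · rw [hf, hg, LinearEquiv.apply_symm_apply]

end bc

end Vale.Agent.P011.D4T.H62
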